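import Vale.Agent.P192.Main
import Vale.Agent.P192.Thin.Spheres
import Vale.Agent.P192.Width.Finite

/-!
P192: finitely presented periodic groups have uniformly bounded orbits of bounded tree-width, no
orbit graph with a thin end, and finite image in actions by bounded powers of one bijection.
-/

namespace Vale.Agent.Results.P192.TreeWidthFinite

universe u v w

theorem result (G : Type u) [Group G] [Group.IsFinitelyPresented G]
    (htor : ∀ g : G, IsOfFinOrder g) :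
    (∀ (S : Finset G), Subgroup.closure (S : Set G) = ⊤ →
      (∀ k : ℕ, ∃ (B : ℕ) (N : Subgroup G), N.FiniteIndex ∧
        ∀ (X : Type v) [MulAction G X] (x : X) (T : Type w) (H : SimpleGraph T)
          (bag : T → Finset X), H.IsTree → (∀ t, (bag t).card ≤ k) →
          (∀ y ∈ MulAction.orbit G x, ∃ t, y ∈ bag t) →
          (∀ y ∈ MulAction.orbit G x, ∀ s ∈ S, ∃ t, y ∈ bag t ∧ s • y ∈ bag t) →
          (∀ y ∈ MulAction.orbit G x, (H.induce {t | y ∈ bag t}).Preconnected) →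
          (MulAction.orbit G x).Finite ∧ (MulAction.orbit G x).ncard ≤ B ∧
            ∀ g ∈ N, g • x = x) ∧
      (∀ (X : Type v) [MulAction G X] (V : Type w) (H : SimpleGraph V) (m k D : ℕ) (pos : X → V),
        H.IsTree → (∀ a, (H.neighborSet a).Finite ∧ (H.neighborSet a).ncard ≤ m) →
        (∀ a, ∃ F : Finset X, F.card ≤ k ∧ ∀ y, pos y = a → y ∈ F) →
        (∀ s ∈ S, ∀ y, H.dist (pos y) (pos (s • y)) ≤ D) →
        Finite (MulAction.toPermHom G X).range ∧ (FaithfulSMul G X → Finite G)) ∧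
      ∀ (X : Type v) [MulAction G X],
        (∀ (K : ℕ) (D : ℕ → Set X), Antitone D → (∀ k, (D k).Nonempty) →
          (∀ k, ∀ a ∈ D k, ∀ b ∈ D k, Relation.ReflTransGen
            (fun u w => u ∈ D k ∧ w ∈ D k ∧ ∃ s ∈ S, s • u = w ∨ s • w = u) a b) →
          (∀ k, ∃ T : Finset X, T.card ≤ K ∧
            ∀ x ∈ D k, (∃ s ∈ S, s • x ∉ D k ∨ s⁻¹ • x ∉ D k) → x ∈ T) →
          ∃ x, ∀ k, x ∈ D k) ∧
        ∀ x : X, (MulAction.orbit G x).Infinite → ∀ K : ℕ, ∃ N, ∀ n, N ≤ n →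
          K < ({y | ∃ w : List G, w.length ≤ n + 1 ∧ (∀ g ∈ w, g ∈ S ∨ g⁻¹ ∈ S) ∧
              w.prod • x = y} \
            {y | ∃ w : List G, w.length ≤ n ∧ (∀ g ∈ w, g ∈ S ∨ g⁻¹ ∈ S) ∧
              w.prod • x = y}).ncard) ∧
    ∀ (X : Type v) (φ : Equiv.Perm X) (ρ : G →* Equiv.Perm X),
      (∀ g, ∃ N : ℕ, ∀ x, ∃ k : ℤ, |k| ≤ N ∧ ρ g x = (φ ^ k) x) →
        Finite ρ.range ∧ (Function.Injective ρ → Finite G) := by
  refine ⟨fun S hgen => ⟨fun k => ?_, fun X _ V H m k D pos hH hdeg hfib hmove =>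
    Vale.Agent.P192.Width.tree_like htor S hgen H hH m k D hdeg pos hfib hmove,
    fun X _ => ⟨fun K D h1 h2 h3 h4 => ?_,
      fun x hx K => Vale.Agent.P192.Thin.spheres_ncard htor S hgen x hx K⟩⟩, fun X φ ρ hρ => ?_⟩
  · obtain ⟨B, N, hN, h⟩ := Vale.Agent.P192.Width.exists_kernel.{u, v, w} htor S hgen k
    exact ⟨B, N, hN, fun X _ x T H bag h1 h2 h3 h4 h5 => h X x T H bag ⟨h1, h2, h3, h4, h5⟩⟩
  · by_contra h
    push Not at h
    exact Vale.Agent.P192.Thin.no_thin htor S hgen K D h1 h2 h3 h4 h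
  · have h := Vale.Agent.P192.range_finite htor φ ρ hρ
    exact ⟨h, fun hinj =>
      Finite.of_equiv _ (MonoidHom.ofInjective hinj).toEquiv.symm⟩

end Vale.Agent.Results.P192.TreeWidthFinite
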